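import Vale.Agent.P097.H500.StripExt
import Vale.Agent.P097.Reg.STab

set_option linter.all false

/-! # P097 / Theorem A / A1 : tools (primitives, order of vanishing) -/

open Complex Metric Filter Topology Set

namespace Vale.Agent.P097.H202

/-- holomorphic functions have primitives on convex open sets -/
theorem prim_convex {U : Set ℂ} (hU : IsOpen U) (hc : Convex ℝ U) {f : ℂ → ℂ}
    (hf : DifferentiableOn ℂ f U) : ∃ g : ℂ → ℂ, ∀ z ∈ U, HasDerivAt g (f z) z := by
  rcases U.eq_empty_or_nonempty with rfl | ⟨c, hcU⟩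
  · exact ⟨0, by simp⟩
  have hmem : ∀ z ∈ U, ∀ t : ℝ, t ∈ Icc (0 : ℝ) 1 → c + (t : ℂ) * (z - c) ∈ U := by
    intro z hz t ht
    have h1 := hc.add_smul_sub_mem hcU hz ht
    rwa [Complex.real_smul] at h1
  have hda : ∀ z ∈ U, HasDerivAt f (deriv f z) z := fun z hz =>
    (hf.differentiableAt (hU.mem_nhds hz)).hasDerivAt
  have hdc : ContinuousOn (deriv f) U := (hf.deriv hU).continuousOn
  refine ⟨fun z => ∫ t in (0 : ℝ)..1, (z - c) * f (c + (t : ℂ) * (z - c)), fun z₀ hz₀ => ?_⟩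
  obtain ⟨ε, hε, hball⟩ := Metric.isOpen_iff.1 hU z₀ hz₀
  have hcb : closedBall z₀ (ε / 2) ⊆ U := (closedBall_subset_ball (by linarith)).trans hball
  set φ : ℂ × ℝ → ℂ := fun p => c + (p.2 : ℂ) * (p.1 - c) with hφ
  have hφc : Continuous φ := by rw [hφ]; fun_prop
  set K : Set ℂ := φ '' (closedBall z₀ (ε / 2) ×ˢ Icc (0 : ℝ) 1) with hK
  have hKc : IsCompact K :=
    ((isCompact_closedBall _ _).prod isCompact_Icc).image hφc
  have hKU : K ⊆ U := by
    rintro _ ⟨⟨z, t⟩, ⟨hz, ht⟩, rfl⟩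
    exact hmem z (hcb hz) t ht
  obtain ⟨M₁, hM₁⟩ := hKc.exists_bound_of_continuousOn (hf.continuousOn.mono hKU)
  obtain ⟨M₂, hM₂⟩ := hKc.exists_bound_of_continuousOn (hdc.mono hKU)
  have huI : Set.uIoc (0 : ℝ) 1 = Ioc 0 1 := Set.uIoc_of_le zero_le_one
  have hcont : ∀ z ∈ U, ContinuousOn (fun t : ℝ => f (c + (t : ℂ) * (z - c))) (Icc 0 1) := by
    intro z hz
    exact hf.continuousOn.comp (by fun_prop) (fun t ht => hmem z hz t ht)
  have hcont' : ∀ z ∈ U, ContinuousOn (fun t : ℝ => deriv f (c + (t : ℂ) * (z - c))) (Icc 0 1) := by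
    intro z hz
    exact hdc.comp (by fun_prop) (fun t ht => hmem z hz t ht)
  have key := intervalIntegral.hasDerivAt_integral_of_dominated_loc_of_deriv_le
    (μ := MeasureTheory.volume) (a := (0 : ℝ)) (b := 1)
    (F := fun (z : ℂ) (t : ℝ) => (z - c) * f (c + (t : ℂ) * (z - c)))
    (F' := fun (z : ℂ) (t : ℝ) => f (c + (t : ℂ) * (z - c)) +
      (z - c) * (deriv f (c + (t : ℂ) * (z - c)) * (t : ℂ)))
    (x₀ := z₀) (s := closedBall z₀ (ε / 2)) (bound := fun _ => M₁ + (‖z₀ - c‖ + ε / 2) * M₂)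
    (closedBall_mem_nhds _ (by linarith)) ?_ ?_ ?_ ?_ ?_ ?_
  · have h2 := key.2
    have h3 : ∫ t in (0 : ℝ)..1, (f (c + (t : ℂ) * (z₀ - c)) +
        (z₀ - c) * (deriv f (c + (t : ℂ) * (z₀ - c)) * (t : ℂ))) = f z₀ := by
      have h4 : ∀ t ∈ uIcc (0 : ℝ) 1, HasDerivAt (fun t : ℝ => (t : ℂ) * f (c + (t : ℂ) * (z₀ - c)))
          (f (c + (t : ℂ) * (z₀ - c)) + (z₀ - c) * (deriv f (c + (t : ℂ) * (z₀ - c)) * (t : ℂ))) t := by
        intro t ht
        rw [uIcc_of_le zero_le_one] at ht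
        have e1 : HasDerivAt (fun t : ℝ => (t : ℂ)) 1 t := Complex.ofRealCLM.hasDerivAt
        have e2 : HasDerivAt (fun t : ℝ => c + (t : ℂ) * (z₀ - c)) (z₀ - c) t := by
          have := (e1.mul_const (z₀ - c)).const_add c
          simpa using this
        have e3 := (hda _ (hmem z₀ hz₀ t ht)).scomp t e2
        have e4 := e1.mul e3
        refine e4.congr_deriv ?_
        simp only [Function.comp, smul_eq_mul, one_mul]
        ring
      rw [intervalIntegral.integral_eq_sub_of_hasDerivAt h4]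
      · simp
      · refine ContinuousOn.intervalIntegrable ?_
        rw [uIcc_of_le zero_le_one]
        exact (hcont z₀ hz₀).add (continuousOn_const.mul ((hcont' z₀ hz₀).mul (by fun_prop)))
    rw [h3] at h2
    exact h2
  · filter_upwards [closedBall_mem_nhds z₀ (show 0 < ε / 2 by linarith)] with z hz
    rw [huI]
    exact ((continuousOn_const.mul (hcont z (hcb hz))).mono Ioc_subset_Icc_self).aestronglyMeasurable
      measurableSet_Ioc
  · refine ContinuousOn.intervalIntegrable ?_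
    rw [uIcc_of_le zero_le_one]
    exact continuousOn_const.mul (hcont z₀ hz₀)
  · rw [huI]
    refine ContinuousOn.aestronglyMeasurable (ContinuousOn.mono ?_ Ioc_subset_Icc_self)
      measurableSet_Ioc
    exact (hcont z₀ hz₀).add (continuousOn_const.mul ((hcont' z₀ hz₀).mul (by fun_prop)))
  · refine Eventually.of_forall fun t ht z hz => ?_
    rw [huI] at ht
    have hK1 : c + (t : ℂ) * (z - c) ∈ K := ⟨(z, t), ⟨hz, ⟨ht.1.le, ht.2⟩⟩, rfl⟩
    have b1 := hM₁ _ hK1
    have b2 := hM₂ _ hK1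
    have hM2 : 0 ≤ M₂ := (norm_nonneg _).trans b2
    have b3 : ‖z - c‖ ≤ ‖z₀ - c‖ + ε / 2 := by
      rw [mem_closedBall, dist_eq_norm] at hz
      have := norm_sub_le_norm_sub_add_norm_sub z z₀ c
      linarith
    have b4 : ‖(t : ℂ)‖ ≤ 1 := by
      rw [norm_real, Real.norm_eq_abs, abs_of_nonneg ht.1.le]
      exact ht.2
    refine (norm_add_le _ _).trans (add_le_add b1 ?_)
    rw [norm_mul, norm_mul]
    have b5 : ‖deriv f (c + (t : ℂ) * (z - c))‖ * ‖(t : ℂ)‖ ≤ M₂ := by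
      calc _ ≤ M₂ * 1 := by gcongr
        _ = M₂ := mul_one _
    gcongr
  · exact intervalIntegrable_const
  · refine Eventually.of_forall fun t ht z hz => ?_
    rw [huI] at ht
    have e2 : HasDerivAt (fun z : ℂ => c + (t : ℂ) * (z - c)) (t : ℂ) z := by
      have := (((hasDerivAt_id z).sub_const c).const_mul (t : ℂ)).const_add c
      simpa using this
    have e3 := (hda _ (hmem z (hcb hz) t ⟨ht.1.le, ht.2⟩)).comp z e2
    have e4 := ((hasDerivAt_id z).sub_const c).mul e3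
    refine e4.congr_deriv ?_
    simp only [Function.comp, id, one_mul]

/-- order of vanishing: Schwarz lemma of higher order -/
theorem schwarz_pow {f : ℂ → ℂ} {R M : ℝ} {n : ℕ} (hd : DifferentiableOn ℂ f (ball 0 R))
    (hM : ∀ z ∈ ball (0 : ℂ) R, ‖f z‖ ≤ M) (h0 : f 0 = 0)
    (hO : f =O[𝓝 0] fun z : ℂ => z ^ (n + 1)) {z : ℂ} (hz : z ∈ ball (0 : ℂ) R) :
    ‖f z‖ ≤ M * (‖z‖ / R) ^ (n + 1) := by
  have h := Complex.dist_le_mul_div_pow_of_mapsTo_ball_of_isLittleO (f := f) (c := 0) (R₁ := R)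
    (R₂ := M) (n := n) hd (by
      intro w hw
      rw [h0, mem_closedBall, dist_zero_right]
      exact hM w hw) (by
      simp only [h0, sub_zero]
      refine hO.trans_isLittleO ?_
      have h1 : (fun z : ℂ => z ^ (n + 1)) =o[𝓝 0] fun z : ℂ => z ^ n :=
        Asymptotics.isLittleO_pow_pow (Nat.lt_succ_self n)
      have h2 : (fun z : ℂ => z ^ n) =O[𝓝 0] fun z : ℂ => ‖z‖ ^ n := by
        refine Asymptotics.IsBigO.of_bound 1 (Eventually.of_forall fun z => ?_)
        rw [norm_pow, norm_pow, norm_norm, one_mul]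
      exact h1.trans_isBigO h2) hz
  simpa [h0] using h

end Vale.Agent.P097.H202
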